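import Vale.Agent.P287T.Stm
import Vale.Agent.P287Z.S2

/-!
# The definitions of the statement agree with those of the files on cubics with a plane
-/

open CategoryTheory AlgebraicGeometry MvPolynomial Vale.Agent.P294Z Vale.Agent.P287Z

namespace Vale.Agent.P287T.Stm

theorem tw_iff {ν : ℕ} (I : Ideal (MvPolynomial (Fin ν) ℂ)) [Fact (IsHom I)]
    (L : Fin 3 → Coh (PI I)) : Tw I L ↔ P287Z.Tw I L := Iff.rfl

theorem orth_iff {D : Type*} [Category D] [Abelian D] [HasDerivedCategory D] (L : D) (E : Db D) :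
    Orth L E ↔ P287Z.Orth L E := Iff.rfl

theorem res_eq {S : Scheme.{0}} {U V : S.Opens} (h : V ≤ U) (f : OU S U) : res h f = rf h f := rfl

end Vale.Agent.P287T.Stm
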