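import Vale.Agent.P287Z.D.Defs
import Mathlib.AlgebraicGeometry.Morphisms.Smooth
import Mathlib.LinearAlgebra.BilinearForm.Properties
import Mathlib.RingTheory.Kaehler.Basic

/-!
# Rational cubic fourfolds, K3 surfaces and the Kuznetsov component: definitions of the statement
-/

open CategoryTheory AlgebraicGeometry MvPolynomial Vale.Agent.P294Z Vale.Agent.P287Z

universe w w' v u

namespace Vale.Agent.P287T.Stm

/-- The form `F` is smooth: its first derivatives have no common zero but the origin. -/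
def IsSmoothForm (F : MvPolynomial (Fin 6) ℂ) : Prop :=
  ∀ z : Fin 6 → ℂ, (∀ i, eval z (pderiv i F) = 0) → z = 0

/-- The hypersurface `F = 0` is rational: its function field, in the chart `x₀ = 1`, is the field
of rational functions in four variables over `ℂ`. -/
def IsRationalForm (F : MvPolynomial (Fin 6) ℂ) : Prop :=
  Nonempty (FractionRing (MvPolynomial (Fin 5) ℂ ⧸
      Ideal.span {aeval (Fin.cons 1 X : Fin 6 → MvPolynomial (Fin 5) ℂ) F}) ≃ₐ[ℂ]
    FractionRing (MvPolynomial (Fin 4) ℂ))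

/-- The bounded derived category. -/
abbrev Db (C : Type u) [Category.{v} C] [Abelian C] [HasDerivedCategory.{w} C] : Type (max u v) :=
  (DerivedCategory.TStructure.t (C := C)).bounded.FullSubcategory

/-- `Hom(L, E[k]) = 0` for all `k`. -/
def Orth {D : Type u} [Category.{v} D] [Abelian D] [HasDerivedCategory.{w} D] (L : D) (E : Db D) :
    Prop :=
  ∀ (k : ℤ) (f : (DerivedCategory.singleFunctor D 0).obj L ⟶ E.obj⟦k⟧), f = 0

/-- There is a `ℂ`-linear exact fully faithful functor `D^b(C) ⥤ D^b(D)` whose essential image is the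
class of the objects `E` with `Hom(L i, E[k]) = 0` for all `i`, `k`. -/
def Eqv (C D : Type u) [Category.{v} C] [Abelian C] [Linear ℂ C] [HasDerivedCategory.{w} C]
    [Category.{v} D] [Abelian D] [Linear ℂ D] [HasDerivedCategory.{w'} D] (L : Fin 3 → D) : Prop :=
  ∃ (Φ : Db C ⥤ Db D) (_ : Φ.CommShift ℤ), Φ.IsTriangulated ∧ Φ.Linear ℂ ∧ Φ.Full ∧ Φ.Faithful ∧
    ∀ E, Φ.essImage E ↔ ∀ i, Orth (L i) E

/-- `D^b(Coh S)` is equivalent to the right orthogonal of the sheaves `L i` in `D^b(Coh X)`. -/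
def KuEqv (S X : Scheme.{0}) [IsLocallyNoetherian S] [S.Over (Spec (.of ℂ))]
    [HasDerivedCategory.{w} (Coh S)] [IsLocallyNoetherian X] [X.Over (Spec (.of ℂ))]
    [HasDerivedCategory.{w'} (Coh X)] (L : Fin 3 → Coh X) : Prop :=
  Eqv (Coh S) (Coh X) L

/-- `b f g = B (df, dg)` for an alternating form `B` on the differentials, that is a section of
`ω⁻¹ = ⋀² T` on `Spec A`, and this section vanishes nowhere. -/
def IsGen {A : Type} [CommRing A] [Algebra ℂ A] (b : A → A → A) : Prop :=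
  ∃ B : LinearMap.BilinForm A Ω[A⁄ℂ], B.IsAlt ∧
    (∀ f g, b f g = B (KaehlerDifferential.D ℂ A f) (KaehlerDifferential.D ℂ A g)) ∧
    Ideal.span (Set.range b.uncurry) = ⊤

/-- Restriction of functions. -/
noncomputable def res {S : Scheme.{0}} {U V : S.Opens} (h : V ≤ U) : OU S U → OU S V :=
  (S.presheaf.map (homOfLE h).op).hom

/-- `S` is a K3 surface: it is smooth of dimension two and connected, the canonical bundle is
trivial, and `H¹(S, 𝒪) = Ext¹(𝒪, 𝒪) = 0`. -/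
def IsK3 (S : Scheme.{0}) [S.Over (Spec (.of ℂ))] : Prop :=
  SmoothOfRelativeDimension 2 (S ↘ Spec (.of ℂ)) ∧ ConnectedSpace S ∧
  (∃ b : ∀ U : S.affineOpens, OU S U → OU S U → OU S U,
    (∀ U : S.affineOpens, letI := (cst S U).hom.toAlgebra; IsGen (b U)) ∧
    ∀ (U V : S.affineOpens) (h : V.1 ≤ U.1) f g, b V (res h f) (res h g) = res h (b U f g)) ∧
  ∀ (E : S.Modules) (i : OX S ⟶ E) (p : E ⟶ OX S) (h : i ≫ p = 0),
    (ShortComplex.mk i p h).ShortExact → IsSplitEpi p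

/-- `L` has global sections `s i`, such that `s i` is a basis of `L` on `U i`, where
`s j = (t i j) ^ n • s i`. -/
def IsGlN (X : Scheme.{0}) {ι : Type} (U : ι → X.Opens) (t : ∀ i, ι → OU X (U i)) (n : ℕ)
    (L : Coh X) : Prop :=
  IsGl X U (fun i j => t i j ^ n) L.obj

/-- `L = 𝒪(n)`: the powers `x i ^ n` are global sections of `L`, `x i ^ n` is a basis of `L` on
`D₊(x i)`, where `x j ^ n = (x j / x i) ^ n • x i ^ n`. -/
def IsOn {A σ : Type} [CommRing A] [SetLike σ A] [AddSubgroupClass σ A] (𝒜 : ℕ → σ) [GradedRing 𝒜]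
    {ι : Type} (x : ι → 𝒜 1) (n : ℕ) (L : Coh (Proj 𝒜)) : Prop :=
  IsGlN (Proj 𝒜) (fun i => Proj.basicOpen 𝒜 (x i).1) (fun i j => frac 𝒜 (x i) (x j)) n L

section

variable {ν : ℕ} (I : Ideal (MvPolynomial (Fin ν) ℂ))

theorem X_mem (i : Fin ν) : Ideal.Quotient.mk I (X i) ∈ gr I 1 := ⟨X i, isHomogeneous_X _ _, rfl⟩

/-- The coordinates. -/
noncomputable def xI (i : Fin ν) : gr I 1 := ⟨Ideal.Quotient.mk I (X i), X_mem I i⟩

/-- `L 0, L 1, L 2` are `𝒪, 𝒪(1), 𝒪(2)`. -/
def Tw [Fact (IsHom I)] (L : Fin 3 → Coh (PI I)) : Prop :=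
  ∀ n : Fin 3, IsOn (gr I) (xI I) n (L n)

end

/-- `Ku(X) ≃ D^b(Coh S)` for some projective K3 surface `S`, where `X` is the cubic `F = 0`. -/
def KuK3 (F : MvPolynomial (Fin 6) ℂ) [Fact (F.IsHomogeneous 3)] : Prop :=
  ∃ (ν : ℕ) (I : Ideal (MvPolynomial (Fin ν) ℂ)) (_ : Fact (IsHom I)), IsK3 (PI I) ∧
    (∃ L, Tw (Ideal.span {F}) L) ∧ ∀ L, Tw (Ideal.span {F}) L →
      ∀ [HasDerivedCategory.{w} (Coh (PI I))] [HasDerivedCategory.{w'} (Coh (PI (Ideal.span {F})))],
        KuEqv (PI I) (PI (Ideal.span {F})) L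

end Vale.Agent.P287T.Stm
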